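import Vale.Agent.P042.Bdl.B1
import Vale.Agent.P042.WA.Spec
import Mathlib.RingTheory.Ideal.Norm.RelNorm
import Mathlib.NumberTheory.ClassNumber.FunctionField
import Mathlib.RingTheory.LaurentSeries
set_option autoImplicit false

/-! Interface of ROUTE B of Theorem A (see the notes 4025 and 4165 of P042).
Only definitions and statements. -/

namespace Vale.Agent.P042.WB

open Polynomial Vale.Agent.P042.WA

/-! ### T1: Newton identity in an arithmetical semigroup -/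

/-- degree function on a factorial monoid with unique units -/
structure Arith {M : Type} [CommMonoidWithZero M] (deg : M → ℕ) : Prop where
  mul : ∀ a b : M, a ≠ 0 → b ≠ 0 → deg (a * b) = deg a + deg b
  irr : ∀ a : M, Irreducible a → 1 ≤ deg a
  fin : ∀ n : ℕ, {a : M | a ≠ 0 ∧ deg a = n}.Finite

/-- sum over all elements of degree `n` -/
noncomputable def ZZ {M : Type} [CommMonoidWithZero M] (deg : M → ℕ) (χ : M → ℂ) (n : ℕ) : ℂ :=
  ∑ᶠ a ∈ {a : M | a ≠ 0 ∧ deg a = n}, χ a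

/-- power sum of degree `j` -/
noncomputable def SS {M : Type} [CommMonoidWithZero M] (deg : M → ℕ) (χ : M → ℂ) (j : ℕ) : ℂ :=
  ∑ᶠ a ∈ {a : M | Irreducible a ∧ deg a ∣ j}, (deg a : ℂ) * χ a ^ (j / deg a)

/-- T1 -/
def T1 : Prop :=
  ∀ (M : Type) [CommMonoidWithZero M] [UniqueFactorizationMonoid M] [Subsingleton Mˣ]
    (deg : M → ℕ), Arith deg → ∀ χ : M → ℂ, χ 1 = 1 →
    (∀ a b : M, a ≠ 0 → b ≠ 0 → χ (a * b) = χ a * χ b) → ∀ n : ℕ,
    (n : ℂ) * ZZ deg χ n = ∑ j ∈ Finset.Icc 1 n, SS deg χ j * ZZ deg χ (n - j)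

/-! ### T2: the norm of ideals -/

section nm

variable {F : Type} [Field F] {O : Type} [CommRing O] [IsDedekindDomain O]
  [Algebra F[X] O] [Module.Finite F[X] O] [Module.IsTorsionFree F[X] O]

open Classical in
/-- monic generator of the relative norm of an ideal (`0` for the zero ideal) -/
noncomputable def nm (J : Ideal O) : F[X] :=
  normalize (Submodule.IsPrincipal.generator (Ideal.relNorm F[X] J))

end nm

/-- T2 -/
structure T2Data (F : Type) [Field F] [Finite F] (O : Type) [CommRing O]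
    [IsDedekindDomain O] [Algebra F[X] O] [Module.Finite F[X] O] [Module.IsTorsionFree F[X] O]
    [Algebra F O] [IsScalarTower F F[X] O] : Prop where
  monic : ∀ J : Ideal O, J ≠ ⊥ → (nm (F := F) J).Monic
  mul : ∀ I J : Ideal O, nm (F := F) (I * J) = nm (F := F) I * nm (F := F) J
  one : nm (F := F) (1 : Ideal O) = 1
  span : ∀ J : Ideal O, Ideal.span {nm (F := F) J} = Ideal.relNorm F[X] J
  mem : ∀ J : Ideal O, algebraMap F[X] O (nm (F := F) J) ∈ J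
  card : ∀ J : Ideal O, J ≠ ⊥ → Nat.card (O ⧸ J) = Nat.card F ^ (nm (F := F) J).natDegree
  finrank : ∀ J : Ideal O, J ≠ ⊥ → Module.finrank F (O ⧸ J) = (nm (F := F) J).natDegree
  fin : ∀ n : ℕ, {J : Ideal O | J ≠ ⊥ ∧ (nm (F := F) J).natDegree = n}.Finite
  irr : ∀ J : Ideal O, Irreducible J → 1 ≤ (nm (F := F) J).natDegree
  trace : ∀ (J : Ideal O) (g : F[X]), J.IsMaximal → J ≠ ⊥ →
    lam g (nm (F := F) J) = Algebra.trace F (O ⧸ J) (Ideal.Quotient.mk J (algebraMap F[X] O g))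

/-- T2 -/
def T2 : Prop :=
  ∀ (F : Type) [Field F] [Finite F] (O : Type) [CommRing O] [IsDedekindDomain O]
    [Algebra F[X] O] [Module.Finite F[X] O] [Module.IsTorsionFree F[X] O] [Finite (ClassGroup O)]
    [Algebra F O] [IsScalarTower F F[X] O], T2Data F O

/-! ### T5: points with values in a finite field and prime ideals -/

/-- T5 -/
def T5 : Prop :=
  ∀ (F : Type) [Field F] [Finite F] (O : Type) [CommRing O] [IsDedekindDomain O]
    [Algebra F[X] O] [Module.Finite F[X] O] [Module.IsTorsionFree F[X] O]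
    [Algebra F O] [IsScalarTower F F[X] O] (_ : T2Data F O)
    (E : Type) [Field E] [Finite E] [Algebra F E] (ψ : AddChar F ℂ) (g : F[X]),
    Finite (O →ₐ[F] E) ∧
    ∑ᶠ φ : O →ₐ[F] E, ψ (Algebra.trace F E (φ (algebraMap F[X] O g))) =
      SS (fun J : Ideal O => (nm (F := F) J).natDegree) (fun J => ψ (lam g (nm (F := F) J)))
        (Module.finrank F E)

/-! ### STP: the power Stepanov lemma -/

/-- STP -/
def STP : Prop :=
  ∀ n W g : ℕ, 1 ≤ n → ∃ K μ0 : ℕ, ∀ (p : ℕ), p.Prime →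
    ∀ (𝕜 : Type) [Field 𝕜] [IsAlgClosed 𝕜] [CharP 𝕜 p]
      (R : Type) [CommRing R] [IsDomain R] [IsNoetherianRing R] [Algebra 𝕜 R]
      (V : ℕ → Submodule 𝕜 R) (_ : Filt 𝕜 n W V)
      (_ : ∀ f : R, f ≠ 0 → ∃ φ : R →ₐ[𝕜] 𝕜, φ f ≠ 0)
      (Q : Type) [CommRing Q] [Algebra 𝕜 Q] [Algebra R Q] [IsScalarTower 𝕜 R Q]
      (VQ : ℕ → Submodule 𝕜 Q) (_ : Monotone VQ) (_ : ∀ T, Module.Finite 𝕜 (VQ T))
      (_ : ∀ A B, ∀ a ∈ V A, ∀ b ∈ VQ B, algebraMap R Q a * b ∈ VQ (A + B))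
      (_ : ∀ T, Module.finrank 𝕜 (VQ T) ≤ g * n * (T + 1))
      (M : Set (R × Q))
      (_ : ∀ T, V T ≤ Submodule.span 𝕜 {b : R | ∃ β : Q, (b, β) ∈ M ∧ b ∈ V T ∧ β ∈ VQ T})
      (μ : ℕ) (_ : μ0 ≤ μ) (P : Finset (R →ₐ[𝕜] 𝕜))
      (_ : ∀ φ ∈ P, ∃ ψ : Q →+* 𝕜, (∀ a : R, ψ (algebraMap R Q a) = φ a) ∧
        ∀ b β, (b, β) ∈ M → ψ β = (φ b) ^ (p ^ (2 * μ))),
      P.card ≤ g * p ^ (2 * μ) + K * p ^ μ

/-! ### AS: the Artin-Schreier cover -/

/-- AS. `g` of degree `m` prime to `p`; the filtration of `R' = R[w]/(w^p - w - g(x))` has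
`w` in degree `m` and `V T` in degree `p T`. -/
def AS : Prop :=
  ∀ (p : ℕ) [Fact p.Prime] (n W m : ℕ), 1 ≤ n → 1 ≤ m → ∃ W' : ℕ,
    ∀ (𝕜 : Type) [Field 𝕜] [IsAlgClosed 𝕜] [CharP 𝕜 p]
      (R : Type) [CommRing R] [IsDomain R] [IsNoetherianRing R] [Algebra 𝕜 R]
      (V : ℕ → Submodule 𝕜 R) (_ : Filt 𝕜 n W V)
      (x : R) (_ : x ∈ V 1) (e : R →ₐ[𝕜] LaurentSeries 𝕜) (_ : Function.Injective e)
      (_ : e x = HahnSeries.single (-1) 1)
      (g : 𝕜[X]) (_ : g.natDegree = m) (_ : ¬ p ∣ m),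
      IsDomain (AdjoinRoot (X ^ p - X - C (aeval x g) : R[X])) ∧
      Filt 𝕜 n W' (fun T => Submodule.span 𝕜
        {f : AdjoinRoot (X ^ p - X - C (aeval x g) : R[X]) | ∃ (j : ℕ) (a : ℕ) (b : R),
          j < p ∧ p * a + m * j ≤ T ∧ b ∈ V a ∧
          f = AdjoinRoot.of _ b * (AdjoinRoot.root _) ^ j})

/-- SEP: points separate functions -/
def SEP : Prop :=
  ∀ (𝕜 : Type) [Field 𝕜] [IsAlgClosed 𝕜] (R : Type) [CommRing R] [IsDomain R] [Algebra 𝕜 R]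
    [Algebra.FiniteType 𝕜 R] (f : R), f ≠ 0 → ∃ φ : R →ₐ[𝕜] 𝕜, φ f ≠ 0

/-- FD1: the filtration of `R[z]/G`, `z` in degree one. -/
def FD1 : Prop :=
  ∀ (n W d : ℕ), 1 ≤ n → 1 ≤ d → ∀ (𝕜 : Type) [Field 𝕜] (R : Type) [CommRing R] [Algebra 𝕜 R]
    (V : ℕ → Submodule 𝕜 R) (_ : Filt 𝕜 n W V) (G : R[X]), G.Monic → G.natDegree = d →
    (∀ i, i ≤ d → G.coeff i ∈ V (d - i)) →
    Filt 𝕜 (d * n) (W + d) (fun T => Submodule.span 𝕜
      {f : AdjoinRoot G | ∃ (j a : ℕ) (b : R), j < d ∧ a + j ≤ T ∧ b ∈ V a ∧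
        f = AdjoinRoot.of _ b * (AdjoinRoot.root _) ^ j})

/-! ### UB: point counts over large fields -/

/-- UB, from STP, AS, and the filtrations of block FD. -/
def UB : Prop :=
  ∀ (p : ℕ) [Fact p.Prime] (h : (ZMod p)[X]) (F : (ZMod p)[X][X]) (d : ℕ),
    1 ≤ h.natDegree → h.natDegree < p → p ≠ 2 → GoodFac h F d →
    Irreducible (mapXY (algebraMap (ZMod p) (AlgebraicClosure (ZMod p))) F) →
    ∀ g : (ZMod p)[X], 1 ≤ g.natDegree → g.natDegree < p →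
    ∃ K μ0 : ℕ, ∀ μ : ℕ, μ0 ≤ μ → ∀ (E : Type) [Field E] [Finite E] [Algebra (ZMod p) E],
      Module.finrank (ZMod p) E = 2 * μ →
      (∀ b : ZMod p, p * Nat.card {P : E × E // evXY (mapXY (algebraMap (ZMod p) E) F) P.1 P.2 = 0 ∧
        Algebra.trace (ZMod p) E (aeval P.1 g) = b} ≤ p ^ (2 * μ) + K * p ^ μ) ∧
      p ^ (2 * μ) ≤
        Nat.card {P : E × E // evXY (mapXY (algebraMap (ZMod p) E) F) P.1 P.2 = 0} + K * p ^ μ

/-! ### GoalW: sums over the curve with square root cancellation -/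

/-- GoalW, from T1, T2, T5, UB and blocks T3, T4. -/
def GoalW : Prop :=
  ∀ k : ℕ, 1 ≤ k → ∃ K : ℝ, ∀ (p : ℕ) [Fact p.Prime], k < p → p ≠ 2 →
    ∀ (h : (ZMod p)[X]) (F : (ZMod p)[X][X]) (d : ℕ), h.natDegree = k → GoodFac h F d →
      Irreducible (mapXY (algebraMap (ZMod p) (AlgebraicClosure (ZMod p))) F) →
      ((∃ x z : ZMod p, evXY F x z = 0 ∧ evXY (derivative F) x z ≠ 0) →
        (p : ℝ) - K * Real.sqrt p ≤
          (Nat.card {P : ZMod p × ZMod p // evXY F P.1 P.2 = 0} : ℝ)) ∧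
      (∀ g : (ZMod p)[X], g.natDegree = k → ∀ ψ : AddChar (ZMod p) ℂ, ψ ≠ 1 →
        ‖∑ᶠ P ∈ {P : ZMod p × ZMod p | evXY F P.1 P.2 = 0}, ψ (g.eval P.1)‖ ≤
          K * Real.sqrt p)

end Vale.Agent.P042.WB
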